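import Mathlib

set_option autoImplicit false

namespace Vale.Agent.Results.P033.FourWindowCounts

open Finset

/-- periodic autocorrelations vanish at nonzero shifts -/
lemma autocorr_zero (n : ℕ) [NeZero n] (h : ZMod n → ℝ)
    (hH : (Matrix.of fun i j : ZMod n => h (j - i)) * (Matrix.of fun i j : ZMod n => h (j - i)).transpose
      = (n : ℝ) • (1 : Matrix (ZMod n) (ZMod n) ℝ))
    (t : ZMod n) (ht : t ≠ 0) : ∑ j : ZMod n, h j * h (j + t) = 0 := by
  have h1 := congrFun (congrFun hH 0) (-t)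
  simp only [Matrix.mul_apply, Matrix.transpose_apply, Matrix.of_apply, sub_zero, sub_neg_eq_add,
    Matrix.smul_apply, Matrix.one_apply, smul_eq_mul] at h1
  rw [h1]
  have : (0 : ZMod n) ≠ -t := by
    intro h0
    exact ht (by simpa using h0.symm)
  simp [this]

lemma natCast_ne_zero_of_lt (n : ℕ) (k : ℕ) (hk : 0 < k) (hkn : k < n) : ((k : ℕ) : ZMod n) ≠ 0 := by
  intro h0
  rw [ZMod.natCast_eq_zero_iff] at h0
  exact absurd (Nat.le_of_dvd hk h0) (by omega)

lemma sum_shift (n : ℕ) [NeZero n] (F : ZMod n → ℝ) (t : ZMod n) :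
    ∑ j : ZMod n, F (j + t) = ∑ j : ZMod n, F j :=
  Fintype.sum_equiv (Equiv.addRight t) _ _ (fun _ => rfl)

theorem result (n : ℕ) [NeZero n] (hn : 4 < n) (h : ZMod n → ℝ)
    (hpm : ∀ j, h j = 1 ∨ h j = -1)
    (hH : (Matrix.of fun i j : ZMod n => h (j - i)) * (Matrix.of fun i j : ZMod n => h (j - i)).transpose
      = (n : ℝ) • (1 : Matrix (ZMod n) (ZMod n) ℝ)) :
    (n ≤ 16 * (univ.filter fun j : ZMod n =>
        h j = h (j + 1) ∧ h (j + 1) = h (j + 2) ∧ h (j + 2) = h (j + 3)).card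
      ∧ 16 * (univ.filter fun j : ZMod n =>
        h j = h (j + 1) ∧ h (j + 1) = h (j + 2) ∧ h (j + 2) = h (j + 3)).card ≤ 3 * n)
    ∧ (univ.filter fun j : ZMod n =>
        h j ≠ h (j + 1) ∧ h (j + 1) = h (j + 2) ∧ h (j + 2) ≠ h (j + 3)).card
      = (univ.filter fun j : ZMod n =>
        h j = h (j + 1) ∧ h (j + 1) = h (j + 2) ∧ h (j + 2) = h (j + 3)).card
    ∧ (univ.filter fun j : ZMod n =>
        h j ≠ h (j + 1) ∧ h (j + 1) ≠ h (j + 2) ∧ h (j + 2) ≠ h (j + 3)).card
      = (univ.filter fun j : ZMod n =>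
        h j = h (j + 1) ∧ h (j + 1) = h (j + 2) ∧ h (j + 2) = h (j + 3)).card
    ∧ (univ.filter fun j : ZMod n =>
        h j = h (j + 1) ∧ h (j + 1) ≠ h (j + 2) ∧ h (j + 2) = h (j + 3)).card
      = (univ.filter fun j : ZMod n =>
        h j = h (j + 1) ∧ h (j + 1) = h (j + 2) ∧ h (j + 2) = h (j + 3)).card := by
  classical
  -- shifts
  have h1 : (1 : ZMod n) ≠ 0 := by
    have := natCast_ne_zero_of_lt n 1 (by norm_num) (by omega)
    simpa using this
  have h2 : (2 : ZMod n) ≠ 0 := by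
    have := natCast_ne_zero_of_lt n 2 (by norm_num) (by omega)
    simpa using this
  have h3 : (3 : ZMod n) ≠ 0 := by
    have := natCast_ne_zero_of_lt n 3 (by norm_num) (by omega)
    simpa using this
  have h4 : (4 : ZMod n) ≠ 0 := by
    have := natCast_ne_zero_of_lt n 4 (by norm_num) (by omega)
    simpa using this
  have P1 := autocorr_zero n h hH 1 h1
  have P2 := autocorr_zero n h hH 2 h2
  have P3 := autocorr_zero n h hH 3 h3
  have P4 := autocorr_zero n h hH 4 h4
  have hsq : ∀ j, h j * h j = 1 := by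
    intro j
    rcases hpm j with hj | hj <;> rw [hj] <;> norm_num
  -- the four-point sum
  set Q : ℝ := ∑ j : ZMod n, h j * h (j + 1) * h (j + 2) * h (j + 3) with hQ
  -- shifted versions of the autocorrelation sums
  have S11 : ∑ j : ZMod n, h (j + 1) * h (j + 2) = 0 := by
    have := sum_shift n (fun j => h j * h (j + 1)) 1
    simp only [add_assoc] at this
    rw [← P1, ← this]
    norm_num
  have S12 : ∑ j : ZMod n, h (j + 2) * h (j + 3) = 0 := by
    have := sum_shift n (fun j => h j * h (j + 1)) 2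
    simp only [add_assoc] at this
    rw [← P1, ← this]
    norm_num
  have S21 : ∑ j : ZMod n, h (j + 1) * h (j + 3) = 0 := by
    have := sum_shift n (fun j => h j * h (j + 2)) 1
    simp only [add_assoc] at this
    rw [← P2, ← this]
    norm_num
  have hcardn : ∑ _j : ZMod n, (1 : ℝ) = n := by
    simp [ZMod.card]
  -- bound on Q
  have hQle : Q ≤ n / 2 ∧ -(n / 2 : ℝ) ≤ Q := by
    set a : ZMod n → ℝ := fun j => h j * h (j + 1) * h (j + 2) * h (j + 3) with ha
    have hapm : ∀ j, a j = 1 ∨ a j = -1 := by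
      intro j
      simp only [ha]
      rcases hpm j with e0 | e0 <;> rcases hpm (j + 1) with e1 | e1 <;>
        rcases hpm (j + 2) with e2 | e2 <;> rcases hpm (j + 3) with e3 | e3 <;>
        rw [e0, e1, e2, e3] <;> norm_num
    have hprod : ∀ j, a j * a (j + 1) = h j * h (j + 4) := by
      intro j
      simp only [ha]
      have e1 := hsq (j + 1)
      have e2 := hsq (j + 2)
      have e3 := hsq (j + 3)
      have r1 : j + 1 + 1 = j + 2 := by ring
      have r2 : j + 1 + 2 = j + 3 := by ring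
      have r3 : j + 1 + 3 = j + 4 := by ring
      rw [r1, r2, r3]
      calc h j * h (j + 1) * h (j + 2) * h (j + 3) * (h (j + 1) * h (j + 2) * h (j + 3) * h (j + 4))
          = h j * (h (j + 1) * h (j + 1)) * (h (j + 2) * h (j + 2)) * (h (j + 3) * h (j + 3)) * h (j + 4) := by ring
        _ = h j * h (j + 4) := by rw [e1, e2, e3]; ring
    have hsum_prod : ∑ j : ZMod n, a j * a (j + 1) = 0 := by
      rw [← P4]
      exact Finset.sum_congr rfl (fun j _ => hprod j)
    have hshift : ∑ j : ZMod n, a (j + 1) = Q := sum_shift n a 1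
    have hQa : ∑ j : ZMod n, a j = Q := rfl
    constructor
    · have hpt : ∀ j, a j + a (j + 1) ≤ 1 + a j * a (j + 1) := by
        intro j
        rcases hapm j with e0 | e0 <;> rcases hapm (j + 1) with e1 | e1 <;> rw [e0, e1] <;> norm_num
      have := Finset.sum_le_sum (fun j (_ : j ∈ (univ : Finset (ZMod n))) => hpt j)
      rw [Finset.sum_add_distrib, Finset.sum_add_distrib, hsum_prod, hshift, hQa, hcardn] at this
      linarith
    · have hpt : ∀ j, -(a j) - a (j + 1) ≤ 1 + a j * a (j + 1) := by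
        intro j
        rcases hapm j with e0 | e0 <;> rcases hapm (j + 1) with e1 | e1 <;> rw [e0, e1] <;> norm_num
      have := Finset.sum_le_sum (fun j (_ : j ∈ (univ : Finset (ZMod n))) => hpt j)
      rw [Finset.sum_sub_distrib, Finset.sum_neg_distrib, Finset.sum_add_distrib, hsum_prod, hshift,
        hQa, hcardn] at this
      linarith
  -- the four counts as real numbers
  have cA : (8 : ℝ) * ((univ.filter fun j : ZMod n =>
        h j = h (j + 1) ∧ h (j + 1) = h (j + 2) ∧ h (j + 2) = h (j + 3)).card : ℝ) = n + Q := by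
    rw [Finset.card_filter, Nat.cast_sum, Finset.mul_sum]
    have hpt : ∀ j : ZMod n, (8 : ℝ) * ((if h j = h (j + 1) ∧ h (j + 1) = h (j + 2) ∧ h (j + 2) = h (j + 3)
        then 1 else 0 : ℕ) : ℝ)
        = 1 + h j * h (j + 1) + h (j + 1) * h (j + 2) + h (j + 2) * h (j + 3) + h j * h (j + 2)
          + h (j + 1) * h (j + 3) + h j * h (j + 3) + h j * h (j + 1) * h (j + 2) * h (j + 3) := by
      intro j
      rcases hpm j with e0 | e0 <;> rcases hpm (j + 1) with e1 | e1 <;>
        rcases hpm (j + 2) with e2 | e2 <;> rcases hpm (j + 3) with e3 | e3 <;>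
        rw [e0, e1, e2, e3] <;> norm_num
    rw [Finset.sum_congr rfl (fun j _ => hpt j)]
    simp only [Finset.sum_add_distrib]
    rw [P1, P2, P3, S11, S12, S21, hcardn]
    ring
  have cB : (8 : ℝ) * ((univ.filter fun j : ZMod n =>
        h j ≠ h (j + 1) ∧ h (j + 1) = h (j + 2) ∧ h (j + 2) ≠ h (j + 3)).card : ℝ) = n + Q := by
    rw [Finset.card_filter, Nat.cast_sum, Finset.mul_sum]
    have hpt : ∀ j : ZMod n, (8 : ℝ) * ((if h j ≠ h (j + 1) ∧ h (j + 1) = h (j + 2) ∧ h (j + 2) ≠ h (j + 3)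
        then 1 else 0 : ℕ) : ℝ)
        = 1 - h j * h (j + 1) + h (j + 1) * h (j + 2) - h (j + 2) * h (j + 3) - h j * h (j + 2)
          - h (j + 1) * h (j + 3) + h j * h (j + 3) + h j * h (j + 1) * h (j + 2) * h (j + 3) := by
      intro j
      rcases hpm j with e0 | e0 <;> rcases hpm (j + 1) with e1 | e1 <;>
        rcases hpm (j + 2) with e2 | e2 <;> rcases hpm (j + 3) with e3 | e3 <;>
        rw [e0, e1, e2, e3] <;> norm_num
    rw [Finset.sum_congr rfl (fun j _ => hpt j)]
    simp only [Finset.sum_add_distrib, Finset.sum_sub_distrib]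
    rw [P1, P2, P3, S11, S12, S21, hcardn]
    ring
  have cC : (8 : ℝ) * ((univ.filter fun j : ZMod n =>
        h j ≠ h (j + 1) ∧ h (j + 1) ≠ h (j + 2) ∧ h (j + 2) ≠ h (j + 3)).card : ℝ) = n + Q := by
    rw [Finset.card_filter, Nat.cast_sum, Finset.mul_sum]
    have hpt : ∀ j : ZMod n, (8 : ℝ) * ((if h j ≠ h (j + 1) ∧ h (j + 1) ≠ h (j + 2) ∧ h (j + 2) ≠ h (j + 3)
        then 1 else 0 : ℕ) : ℝ)
        = 1 - h j * h (j + 1) - h (j + 1) * h (j + 2) - h (j + 2) * h (j + 3) + h j * h (j + 2)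
          + h (j + 1) * h (j + 3) - h j * h (j + 3) + h j * h (j + 1) * h (j + 2) * h (j + 3) := by
      intro j
      rcases hpm j with e0 | e0 <;> rcases hpm (j + 1) with e1 | e1 <;>
        rcases hpm (j + 2) with e2 | e2 <;> rcases hpm (j + 3) with e3 | e3 <;>
        rw [e0, e1, e2, e3] <;> norm_num
    rw [Finset.sum_congr rfl (fun j _ => hpt j)]
    simp only [Finset.sum_add_distrib, Finset.sum_sub_distrib]
    rw [P1, P2, P3, S11, S12, S21, hcardn]
    ring
  have cD : (8 : ℝ) * ((univ.filter fun j : ZMod n =>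
        h j = h (j + 1) ∧ h (j + 1) ≠ h (j + 2) ∧ h (j + 2) = h (j + 3)).card : ℝ) = n + Q := by
    rw [Finset.card_filter, Nat.cast_sum, Finset.mul_sum]
    have hpt : ∀ j : ZMod n, (8 : ℝ) * ((if h j = h (j + 1) ∧ h (j + 1) ≠ h (j + 2) ∧ h (j + 2) = h (j + 3)
        then 1 else 0 : ℕ) : ℝ)
        = 1 + h j * h (j + 1) - h (j + 1) * h (j + 2) + h (j + 2) * h (j + 3) - h j * h (j + 2)
          - h (j + 1) * h (j + 3) - h j * h (j + 3) + h j * h (j + 1) * h (j + 2) * h (j + 3) := by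
      intro j
      rcases hpm j with e0 | e0 <;> rcases hpm (j + 1) with e1 | e1 <;>
        rcases hpm (j + 2) with e2 | e2 <;> rcases hpm (j + 3) with e3 | e3 <;>
        rw [e0, e1, e2, e3] <;> norm_num
    rw [Finset.sum_congr rfl (fun j _ => hpt j)]
    simp only [Finset.sum_add_distrib, Finset.sum_sub_distrib]
    rw [P1, P2, P3, S11, S12, S21, hcardn]
    ring
  refine ⟨⟨?_, ?_⟩, ?_, ?_, ?_⟩
  · have : (n : ℝ) ≤ 16 * ((univ.filter fun j : ZMod n =>
        h j = h (j + 1) ∧ h (j + 1) = h (j + 2) ∧ h (j + 2) = h (j + 3)).card : ℝ) := by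
      linarith [hQle.2]
    exact_mod_cast this
  · have : 16 * ((univ.filter fun j : ZMod n =>
        h j = h (j + 1) ∧ h (j + 1) = h (j + 2) ∧ h (j + 2) = h (j + 3)).card : ℝ) ≤ 3 * (n : ℝ) := by
      linarith [hQle.1]
    exact_mod_cast this
  · have : ((univ.filter fun j : ZMod n =>
        h j ≠ h (j + 1) ∧ h (j + 1) = h (j + 2) ∧ h (j + 2) ≠ h (j + 3)).card : ℝ)
        = ((univ.filter fun j : ZMod n =>
        h j = h (j + 1) ∧ h (j + 1) = h (j + 2) ∧ h (j + 2) = h (j + 3)).card : ℝ) := by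
      linarith
    exact_mod_cast this
  · have : ((univ.filter fun j : ZMod n =>
        h j ≠ h (j + 1) ∧ h (j + 1) ≠ h (j + 2) ∧ h (j + 2) ≠ h (j + 3)).card : ℝ)
        = ((univ.filter fun j : ZMod n =>
        h j = h (j + 1) ∧ h (j + 1) = h (j + 2) ∧ h (j + 2) = h (j + 3)).card : ℝ) := by
      linarith
    exact_mod_cast this
  · have : ((univ.filter fun j : ZMod n =>
        h j = h (j + 1) ∧ h (j + 1) ≠ h (j + 2) ∧ h (j + 2) = h (j + 3)).card : ℝ)
        = ((univ.filter fun j : ZMod n =>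
        h j = h (j + 1) ∧ h (j + 1) = h (j + 2) ∧ h (j + 2) = h (j + 3)).card : ℝ) := by
      linarith
    exact_mod_cast this

end Vale.Agent.Results.P033.FourWindowCounts
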