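import Mathlib

set_option autoImplicit false

namespace Vale.Agent.Results.P033.NotKronecker

open Finset

/-- periodic autocorrelations vanish at nonzero shifts -/
lemma autocorr_zero (n : ℕ) [NeZero n] (h : ZMod n → ℝ)
    (hH : (Matrix.of fun i j : ZMod n => h (j - i)) * (Matrix.of fun i j : ZMod n => h (j - i)).transpose
      = (n : ℝ) • (1 : Matrix (ZMod n) (ZMod n) ℝ))
    (t : ZMod n) (ht : t ≠ 0) : ∑ j : ZMod n, h j * h (j + t) = 0 := by
  have h1 := congrFun (congrFun hH 0) (-t)
  simp only [Matrix.mul_apply, Matrix.transpose_apply, Matrix.of_apply, sub_zero, sub_neg_eq_add,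
    Matrix.smul_apply, Matrix.one_apply, smul_eq_mul] at h1
  rw [h1]
  have : (0 : ZMod n) ≠ -t := by
    intro h0
    exact ht (by simpa using h0.symm)
  simp [this]

lemma natCast_ne_zero_of_lt (n : ℕ) (k : ℕ) (hk : 0 < k) (hkn : k < n) : ((k : ℕ) : ZMod n) ≠ 0 := by
  intro h0
  rw [ZMod.natCast_eq_zero_iff] at h0
  exact absurd (Nat.le_of_dvd hk h0) (by omega)

lemma sum_zmod_eq_sum_range (n : ℕ) [NeZero n] (F : ZMod n → ℝ) :
    ∑ x : ZMod n, F x = ∑ k ∈ range n, F (k : ZMod n) := by
  symm
  apply Finset.sum_nbij' (fun k : ℕ => (k : ZMod n)) (fun x : ZMod n => x.val)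
  · intro k _
    exact Finset.mem_univ _
  · intro x _
    exact mem_range.2 (ZMod.val_lt x)
  · intro k hk
    exact ZMod.val_natCast_of_lt (mem_range.1 hk)
  · intro x _
    exact ZMod.natCast_zmod_val x
  · intro k _
    rfl

lemma sum_range_mul (a b : ℕ) (f : ℕ → ℝ) :
    ∑ k ∈ range (a * b), f k = ∑ j ∈ range b, ∑ i ∈ range a, f (i + a * j) := by
  induction b with
  | zero => simp
  | succ b ih =>
    rw [Nat.mul_succ, Finset.sum_range_add, ih, Finset.sum_range_succ]
    congr 1
    apply Finset.sum_congr rfl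
    intro i _
    rw [add_comm]

theorem result (n a b : ℕ) [NeZero n] (hn : n = a * b) (ha : 2 ≤ a) (hb : 2 ≤ b)
    (h : ZMod n → ℝ) (α β : ℕ → ℝ)
    (hα : ∀ i, α i = 1 ∨ α i = -1) (hβ : ∀ j, β j = 1 ∨ β j = -1)
    (hkron : ∀ i : ℕ, i < a → ∀ j : ℕ, j < b → h ((i + a * j : ℕ) : ZMod n) = α i * β j) :
    (Matrix.of fun i j : ZMod n => h (j - i)) * (Matrix.of fun i j : ZMod n => h (j - i)).transpose
      ≠ (n : ℝ) • (1 : Matrix (ZMod n) (ZMod n) ℝ) := by
  classical
  intro hH
  obtain ⟨a', rfl⟩ : ∃ a', a = a' + 1 := ⟨a - 1, by omega⟩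
  have ha' : 1 ≤ a' := by omega
  have hrange : range n = range ((a' + 1) * b) := by rw [hn]
  have hαsq : ∀ i, α i * α i = 1 := by
    intro i
    rcases hα i with e | e <;> rw [e] <;> norm_num
  have hβsq : ∀ j, β j * β j = 1 := by
    intro j
    rcases hβ j with e | e <;> rw [e] <;> norm_num
  -- the sign of the next block (cyclically)
  set β' : ℕ → ℝ := fun j => if j + 1 < b then β (j + 1) else β 0 with hβ'
  have hshift : ∀ i : ℕ, i < a' + 1 → ∀ j : ℕ, j < b →
      h ((i + (a' + 1) * (j + 1) : ℕ) : ZMod n) = α i * β' j := by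
    intro i hi j hj
    simp only [hβ']
    split_ifs with hjb
    · exact hkron i hi (j + 1) hjb
    · have hjb' : j + 1 = b := by omega
      have h0 := hkron i hi 0 (by omega)
      rw [hjb']
      have e : ((i + (a' + 1) * b : ℕ) : ZMod n) = ((i + (a' + 1) * 0 : ℕ) : ZMod n) := by
        rw [Nat.cast_add, Nat.cast_add, ← hn, ZMod.natCast_self]
        simp
      rw [e]
      exact h0
  -- shift by the block length
  have hnb : a' + 1 < n := by
    rw [hn]
    nlinarith
  have Pa := autocorr_zero n h hH ((a' + 1 : ℕ) : ZMod n)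
    (natCast_ne_zero_of_lt n (a' + 1) (by omega) hnb)
  rw [sum_zmod_eq_sum_range, hrange, sum_range_mul] at Pa
  have hPβ : ∑ j ∈ range b, β j * β' j = 0 := by
    have e : ∀ j ∈ range b, ∑ i ∈ range (a' + 1),
        h ((i + (a' + 1) * j : ℕ) : ZMod n) *
          h (((i + (a' + 1) * j : ℕ) : ZMod n) + ((a' + 1 : ℕ) : ZMod n))
        = ((a' : ℝ) + 1) * (β j * β' j) := by
      intro j hj
      have hj' := mem_range.1 hj
      have e1 : ∀ i ∈ range (a' + 1),
          h ((i + (a' + 1) * j : ℕ) : ZMod n) *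
          h (((i + (a' + 1) * j : ℕ) : ZMod n) + ((a' + 1 : ℕ) : ZMod n))
          = β j * β' j := by
        intro i hi
        have hi' := mem_range.1 hi
        have e2 : ((i + (a' + 1) * j : ℕ) : ZMod n) + ((a' + 1 : ℕ) : ZMod n)
            = ((i + (a' + 1) * (j + 1) : ℕ) : ZMod n) := by
          push_cast
          ring
        rw [e2, hkron i hi' j hj', hshift i hi' j hj']
        have := hαsq i
        linear_combination (β j * β' j) * this
      rw [Finset.sum_congr rfl e1]
      simp only [Finset.sum_const, Finset.card_range, nsmul_eq_mul]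
      push_cast
      ring
    rw [Finset.sum_congr rfl e, ← Finset.mul_sum] at Pa
    have hpos : ((a' : ℝ) + 1) ≠ 0 := by positivity
    exact (mul_eq_zero.1 Pa).resolve_left hpos
  -- shift by the block length minus one
  have hna : a' < n := by omega
  have Pb := autocorr_zero n h hH ((a' : ℕ) : ZMod n)
    (natCast_ne_zero_of_lt n a' (by omega) hna)
  rw [sum_zmod_eq_sum_range, hrange, sum_range_mul] at Pb
  have e : ∀ j ∈ range b, ∑ i ∈ range (a' + 1),
      h ((i + (a' + 1) * j : ℕ) : ZMod n) *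
        h (((i + (a' + 1) * j : ℕ) : ZMod n) + ((a' : ℕ) : ZMod n))
      = (∑ i ∈ range a', α (i + 1) * α i) * (β j * β' j) + α 0 * α a' := by
    intro j hj
    have hj' := mem_range.1 hj
    rw [Finset.sum_range_succ', Finset.sum_mul]
    congr 1
    · apply Finset.sum_congr rfl
      intro i hi
      have hi' := mem_range.1 hi
      have e2 : ((i + 1 + (a' + 1) * j : ℕ) : ZMod n) + ((a' : ℕ) : ZMod n)
          = ((i + (a' + 1) * (j + 1) : ℕ) : ZMod n) := by
        push_cast
        ring
      rw [e2, hkron (i + 1) (by omega) j hj', hshift i (by omega) j hj']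
      ring
    · have e2 : ((0 + (a' + 1) * j : ℕ) : ZMod n) + ((a' : ℕ) : ZMod n)
          = ((a' + (a' + 1) * j : ℕ) : ZMod n) := by
        push_cast
        ring
      rw [e2, hkron 0 (by omega) j hj', hkron a' (by omega) j hj']
      have := hβsq j
      linear_combination (α 0 * α a') * this
  rw [Finset.sum_congr rfl e, Finset.sum_add_distrib, ← Finset.mul_sum, hPβ, mul_zero, zero_add] at Pb
  simp only [Finset.sum_const, Finset.card_range, nsmul_eq_mul] at Pb
  have hb0 : (b : ℝ) ≠ 0 := by
    have : 0 < b := by omega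
    positivity
  have h0 : α 0 * α a' = 0 := (mul_eq_zero.1 Pb).resolve_left hb0
  rcases hα 0 with e0 | e0 <;> rcases hα a' with e1 | e1 <;> rw [e0, e1] at h0 <;> norm_num at h0

end Vale.Agent.Results.P033.NotKronecker
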