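import Mathlib

set_option autoImplicit false

namespace Vale.Agent.Results.P033.RunLengthBound

open Finset

/-- periodic autocorrelations vanish at nonzero shifts -/
lemma autocorr_zero (n : ℕ) [NeZero n] (h : ZMod n → ℝ)
    (hH : (Matrix.of fun i j : ZMod n => h (j - i)) * (Matrix.of fun i j : ZMod n => h (j - i)).transpose
      = (n : ℝ) • (1 : Matrix (ZMod n) (ZMod n) ℝ))
    (t : ZMod n) (ht : t ≠ 0) : ∑ j : ZMod n, h j * h (j + t) = 0 := by
  have h1 := congrFun (congrFun hH 0) (-t)
  simp only [Matrix.mul_apply, Matrix.transpose_apply, Matrix.of_apply, sub_zero, sub_neg_eq_add,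
    Matrix.smul_apply, Matrix.one_apply, smul_eq_mul] at h1
  rw [h1]
  have : (0 : ZMod n) ≠ -t := by
    intro h0
    exact ht (by simpa using h0.symm)
  simp [this]

lemma sum_shift (n : ℕ) [NeZero n] (F : ZMod n → ℝ) (t : ZMod n) :
    ∑ j : ZMod n, F (j + t) = ∑ j : ZMod n, F j :=
  Fintype.sum_equiv (Equiv.addRight t) _ _ (fun _ => rfl)

lemma cast_inj_of_lt (n : ℕ) (s t : ℕ) (hs : s < n) (ht : t < n)
    (hst : ((s : ℕ) : ZMod n) = ((t : ℕ) : ZMod n)) : s = t := by
  rw [ZMod.natCast_eq_natCast_iff] at hst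
  have := hst
  unfold Nat.ModEq at this
  rwa [Nat.mod_eq_of_lt hs, Nat.mod_eq_of_lt ht] at this

/-- second moment of the window sums of length `T` -/
lemma window_sq_sum (n : ℕ) [NeZero n] (h : ZMod n → ℝ)
    (hpm : ∀ j, h j = 1 ∨ h j = -1)
    (hH : (Matrix.of fun i j : ZMod n => h (j - i)) * (Matrix.of fun i j : ZMod n => h (j - i)).transpose
      = (n : ℝ) • (1 : Matrix (ZMod n) (ZMod n) ℝ))
    (T : ℕ) (hT : T ≤ n) :
    ∑ x : ZMod n, (∑ t ∈ range T, h (x + (t : ZMod n))) ^ 2 = (n : ℝ) * T := by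
  have hsq : ∀ j, h j * h j = 1 := by
    intro j
    rcases hpm j with hj | hj <;> rw [hj] <;> norm_num
  have hcardn : ∑ _j : ZMod n, (1 : ℝ) = n := by
    simp [ZMod.card]
  have key : ∀ s ∈ range T, ∀ t ∈ range T,
      ∑ x : ZMod n, h (x + (s : ZMod n)) * h (x + (t : ZMod n)) = if s = t then (n : ℝ) else 0 := by
    intro s hs t ht
    have hs' : s < n := lt_of_lt_of_le (mem_range.1 hs) hT
    have ht' : t < n := lt_of_lt_of_le (mem_range.1 ht) hT
    have e1 : ∑ x : ZMod n, h (x + (s : ZMod n)) * h (x + (t : ZMod n))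
        = ∑ x : ZMod n, h x * h (x + ((t : ZMod n) - (s : ZMod n))) := by
      have := sum_shift n (fun x => h x * h (x + ((t : ZMod n) - (s : ZMod n)))) (s : ZMod n)
      rw [← this]
      apply Finset.sum_congr rfl
      intro x _
      congr 2
      ring
    rw [e1]
    split_ifs with hst
    · subst hst
      simp only [sub_self, add_zero]
      rw [Finset.sum_congr rfl (fun x _ => hsq x), hcardn]
    · apply autocorr_zero n h hH
      intro h0
      apply hst
      have : ((t : ℕ) : ZMod n) = ((s : ℕ) : ZMod n) := sub_eq_zero.1 h0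
      exact (cast_inj_of_lt n t s ht' hs' this).symm
  have expand : ∀ x : ZMod n, (∑ t ∈ range T, h (x + (t : ZMod n))) ^ 2
      = ∑ s ∈ range T, ∑ t ∈ range T, h (x + (s : ZMod n)) * h (x + (t : ZMod n)) := by
    intro x
    rw [sq, Finset.sum_mul_sum]
  rw [Finset.sum_congr rfl (fun x _ => expand x)]
  rw [Finset.sum_comm]
  have : ∀ s ∈ range T, ∑ x : ZMod n, ∑ t ∈ range T, h (x + (s : ZMod n)) * h (x + (t : ZMod n))
      = (n : ℝ) := by
    intro s hs
    rw [Finset.sum_comm]
    rw [Finset.sum_congr rfl (fun t ht => key s hs t ht)]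
    simp [hs]
  rw [Finset.sum_congr rfl this]
  simp [mul_comm]

/-- closed form for the overhang sum -/
lemma overhang_sum (m : ℕ) (a : ℝ) :
    3 * ∑ i ∈ range m, (a - 2 * ((i : ℝ) + 1)) ^ 2
      = 3 * m * a ^ 2 - 6 * a * m * (m + 1) + 2 * m * (m + 1) * (2 * m + 1) := by
  induction m with
  | zero => simp
  | succ m ih =>
    rw [Finset.sum_range_succ, mul_add, ih]
    push_cast
    ring

lemma overhang_closed (T : ℕ) :
    6 * ∑ i ∈ range ((T - 1) / 2), ((T : ℝ) - 2 * ((i : ℝ) + 1)) ^ 2
      = (T : ℝ) * ((T : ℝ) - 1) * ((T : ℝ) - 2) := by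
  have h := overhang_sum ((T - 1) / 2) (T : ℝ)
  rcases Nat.eq_zero_or_pos T with h0 | hpos
  · subst h0
    simp
  rcases Nat.even_or_odd' (T - 1) with ⟨q, hq | hq⟩
  · have e1 : (T - 1) / 2 = q := by omega
    have e2 : T = 2 * q + 1 := by omega
    rw [e1] at h ⊢
    have e3 : (T : ℝ) = 2 * q + 1 := by exact_mod_cast e2
    rw [e3] at h ⊢
    linear_combination 2 * h
  · have e1 : (T - 1) / 2 = q := by omega
    have e2 : T = 2 * q + 2 := by omega
    rw [e1] at h ⊢
    have e3 : (T : ℝ) = 2 * q + 2 := by exact_mod_cast e2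
    rw [e3] at h ⊢
    linear_combination 2 * h

theorem result (n : ℕ) [NeZero n] (h : ZMod n → ℝ)
    (hpm : ∀ j, h j = 1 ∨ h j = -1)
    (hH : (Matrix.of fun i j : ZMod n => h (j - i)) * (Matrix.of fun i j : ZMod n => h (j - i)).transpose
      = (n : ℝ) • (1 : Matrix (ZMod n) (ZMod n) ℝ))
    (x₀ : ZMod n) (L : ℕ) (hL : L ≤ n)
    (hrun : ∀ i : ℕ, i < L → h (x₀ + (i : ZMod n)) = h x₀) :
    (∀ T : ℕ, 1 ≤ T → T ≤ L → 3 * L * T + 2 ≤ 3 * n + 2 * T * T) ∧ 3 * L ^ 2 + 4 ≤ 8 * n := by
  classical
  have main : ∀ T : ℕ, 1 ≤ T → T ≤ L → 3 * L * T + 2 ≤ 3 * n + 2 * T * T := by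
    intro T hTpos hTL
    obtain ⟨D, rfl⟩ : ∃ D, L = T + D := ⟨L - T, by omega⟩
    have hTn : T ≤ n := le_trans hTL hL
    have hW := window_sq_sum n h hpm hH T hTn
    set W : ZMod n → ℝ := fun x => ∑ t ∈ range T, h (x + (t : ZMod n)) with hWdef
    set c : ℝ := h x₀ with hcdef
    have hc : c * c = 1 := by
      rcases hpm x₀ with hj | hj <;> rw [hcdef, hj] <;> norm_num
    have hcabs : ∀ y : ZMod n, -1 ≤ c * h y ∧ c * h y ≤ 1 := by
      intro y
      rcases hpm x₀ with hj | hj <;> rcases hpm y with hy | hy <;> rw [hcdef, hj, hy] <;> norm_num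
    -- sliding the window by one
    have slide : ∀ x : ZMod n, W (x + 1) = W x + h (x + (T : ZMod n)) - h x := by
      intro x
      simp only [hWdef]
      have e1 : ∑ t ∈ range T, h (x + 1 + (t : ZMod n))
          = ∑ t ∈ range T, h (x + ((t + 1 : ℕ) : ZMod n)) := by
        apply Finset.sum_congr rfl
        intro t _
        congr 1
        push_cast
        ring
      rw [e1]
      have e2 := Finset.sum_range_succ' (fun t : ℕ => h (x + ((t : ℕ) : ZMod n))) T
      have e3 := Finset.sum_range_succ (fun t : ℕ => h (x + ((t : ℕ) : ZMod n))) T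
      simp only [Nat.cast_zero, add_zero] at e2
      linarith
    have lip1 : ∀ x : ZMod n, c * W x - 2 ≤ c * W (x + 1) := by
      intro x
      rw [slide x]
      have a1 := hcabs (x + (T : ZMod n))
      have a2 := hcabs x
      nlinarith [a1.1, a2.2]
    have lip2 : ∀ x : ZMod n, c * W (x + 1) - 2 ≤ c * W x := by
      intro x
      rw [slide x]
      have a1 := hcabs (x + (T : ZMod n))
      have a2 := hcabs x
      nlinarith [a1.2, a2.1]
    -- windows inside the run
    have inside : ∀ j : ℕ, j ≤ D → c * W (x₀ + (j : ZMod n)) = T := by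
      intro j hj
      simp only [hWdef]
      have : ∀ t ∈ range T, h (x₀ + (j : ZMod n) + (t : ZMod n)) = c := by
        intro t ht
        have ht' := mem_range.1 ht
        have := hrun (j + t) (by omega)
        rw [Nat.cast_add, ← add_assoc] at this
        exact this
      rw [Finset.sum_congr rfl this]
      simp only [Finset.sum_const, Finset.card_range, nsmul_eq_mul]
      calc c * ((T : ℝ) * c) = (c * c) * T := by ring
        _ = T := by rw [hc, one_mul]
    -- overhang to the left
    have left : ∀ s : ℕ, (T : ℝ) - 2 * s ≤ c * W (x₀ - (s : ZMod n)) := by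
      intro s
      induction s with
      | zero =>
        have := inside 0 (Nat.zero_le _)
        simp only [Nat.cast_zero, add_zero] at this
        simp only [Nat.cast_zero, sub_zero, mul_zero]
        exact le_of_eq this.symm
      | succ s ih =>
        have e : x₀ - ((s + 1 : ℕ) : ZMod n) + 1 = x₀ - (s : ZMod n) := by
          push_cast
          ring
        have := lip2 (x₀ - ((s + 1 : ℕ) : ZMod n))
        rw [e] at this
        push_cast at this ⊢
        linarith
    -- overhang to the right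
    have right : ∀ s : ℕ, (T : ℝ) - 2 * s ≤ c * W (x₀ + (D : ZMod n) + (s : ZMod n)) := by
      intro s
      induction s with
      | zero =>
        have := inside D (le_refl _)
        simp only [Nat.cast_zero, add_zero, mul_zero, sub_zero]
        exact le_of_eq this.symm
      | succ s ih =>
        have e : x₀ + (D : ZMod n) + ((s + 1 : ℕ) : ZMod n) = x₀ + (D : ZMod n) + (s : ZMod n) + 1 := by
          push_cast
          ring
        have := lip1 (x₀ + (D : ZMod n) + (s : ZMod n))
        rw [e]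
        push_cast at this ⊢
        linarith
    have sq_of_ge : ∀ (x : ZMod n) (a : ℝ), 0 ≤ a → a ≤ c * W x → a ^ 2 ≤ W x ^ 2 := by
      intro x a ha hax
      have : (c * W x) ^ 2 = W x ^ 2 := by
        rw [mul_pow, sq c, hc, one_mul]
      rw [← this]
      exact pow_le_pow_left₀ ha hax 2
    set m : ℕ := (T - 1) / 2 with hm
    have hm2 : 2 * m + 1 ≤ T := by omega
    set y₀ : ZMod n := x₀ - (m : ZMod n) with hy₀
    have hinj : Set.InjOn (fun k : ℕ => y₀ + (k : ZMod n)) (range (m + (D + 1) + m) : Finset ℕ) := by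
      intro i hi j hj hij
      have hi' : i < n := by
        have := mem_range.1 hi
        omega
      have hj' : j < n := by
        have := mem_range.1 hj
        omega
      have : ((i : ℕ) : ZMod n) = ((j : ℕ) : ZMod n) := add_left_cancel hij
      exact cast_inj_of_lt n i j hi' hj' this
    have hle : ∑ x ∈ (range (m + (D + 1) + m)).image (fun k : ℕ => y₀ + (k : ZMod n)), W x ^ 2
        ≤ ∑ x : ZMod n, W x ^ 2 := by
      apply Finset.sum_le_sum_of_subset_of_nonneg (Finset.subset_univ _)
      intro x _ _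
      positivity
    rw [Finset.sum_image hinj, hW, Finset.sum_range_add, Finset.sum_range_add] at hle
    -- the three pieces
    set S : ℝ := ∑ i ∈ range m, ((T : ℝ) - 2 * ((i : ℝ) + 1)) ^ 2 with hS
    have p1 : S ≤ ∑ k ∈ range m, W (y₀ + (k : ZMod n)) ^ 2 := by
      have hrefl := Finset.sum_range_reflect (fun i : ℕ => ((T : ℝ) - 2 * ((i : ℝ) + 1)) ^ 2) m
      rw [hS, ← hrefl]
      apply Finset.sum_le_sum
      intro k hk
      have hk' := mem_range.1 hk
      have e : y₀ + (k : ZMod n) = x₀ - ((m - k : ℕ) : ZMod n) := by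
        rw [hy₀, Nat.cast_sub (le_of_lt hk')]
        ring
      rw [e]
      have hcast : (((m - 1 - k : ℕ) : ℝ) + 1) = ((m - k : ℕ) : ℝ) := by
        have : m - 1 - k + 1 = m - k := by omega
        exact_mod_cast this
      rw [hcast]
      apply sq_of_ge _ _ _ (left (m - k))
      have : ((m - k : ℕ) : ℝ) ≤ m := by exact_mod_cast Nat.sub_le m k
      have : (2 * m + 1 : ℝ) ≤ T := by exact_mod_cast hm2
      linarith
    have p2 : ((D : ℝ) + 1) * (T : ℝ) ^ 2 = ∑ j ∈ range (D + 1), W (y₀ + ((m + j : ℕ) : ZMod n)) ^ 2 := by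
      have : ∀ j ∈ range (D + 1), W (y₀ + ((m + j : ℕ) : ZMod n)) ^ 2 = (T : ℝ) ^ 2 := by
        intro j hj
        have hj' := mem_range.1 hj
        have e : y₀ + ((m + j : ℕ) : ZMod n) = x₀ + (j : ZMod n) := by
          rw [hy₀]
          push_cast
          ring
        rw [e]
        have h1 := inside j (by omega)
        have : (c * W (x₀ + (j : ZMod n))) ^ 2 = W (x₀ + (j : ZMod n)) ^ 2 := by
          rw [mul_pow, sq c, hc, one_mul]
        rw [← this, h1]
      rw [Finset.sum_congr rfl this]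
      simp only [Finset.sum_const, Finset.card_range, nsmul_eq_mul]
      push_cast
      ring
    have p3 : S ≤ ∑ i ∈ range m, W (y₀ + ((m + (D + 1) + i : ℕ) : ZMod n)) ^ 2 := by
      rw [hS]
      apply Finset.sum_le_sum
      intro i hi
      have hi' := mem_range.1 hi
      have e : y₀ + ((m + (D + 1) + i : ℕ) : ZMod n) = x₀ + (D : ZMod n) + ((i + 1 : ℕ) : ZMod n) := by
        rw [hy₀]
        push_cast
        ring
      rw [e]
      have hr : (T : ℝ) - 2 * ((i : ℝ) + 1) ≤ c * W (x₀ + (D : ZMod n) + ((i + 1 : ℕ) : ZMod n)) := by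
        have h0 := right (i + 1)
        have e2 : ((i + 1 : ℕ) : ℝ) = (i : ℝ) + 1 := by push_cast; ring
        rw [e2] at h0
        exact h0
      apply sq_of_ge _ _ _ hr
      have : ((i : ℝ) + 1) ≤ m := by exact_mod_cast hi'
      have : (2 * m + 1 : ℝ) ≤ T := by exact_mod_cast hm2
      linarith
    have hclosed := overhang_closed T
    rw [← hm, ← hS] at hclosed
    have hTr : (0 : ℝ) < T := by exact_mod_cast hTpos
    have h3 : (T : ℝ) * ((T : ℝ) * T + 3 * D * T + 2) ≤ T * (3 * n) := by
      nlinarith [p1, p2, p3, hle, hclosed]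
    have h4 : (T : ℝ) * T + 3 * D * T + 2 ≤ 3 * n := le_of_mul_le_mul_left h3 hTr
    have h5 : T * T + 3 * D * T + 2 ≤ 3 * n := by exact_mod_cast h4
    nlinarith [h5]
  refine ⟨main, ?_⟩
  rcases Nat.eq_zero_or_pos L with h0 | hLpos
  · subst h0
    have : 1 ≤ n := Nat.one_le_iff_ne_zero.2 (NeZero.ne n)
    omega
  have h1 := main ((3 * L + 2) / 4) (by omega) (by omega)
  set T := (3 * L + 2) / 4 with hT
  have hlo : 3 * L ≤ 4 * T + 1 := by omega
  have hhi : 4 * T ≤ 3 * L + 2 := by omega
  zify at h1 hlo hhi ⊢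
  nlinarith [mul_nonneg (sub_nonneg.2 hlo) (sub_nonneg.2 hhi)]

end Vale.Agent.Results.P033.RunLengthBound
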