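import Vale.Agent.Results.P033.FourWindowCounts
import Vale.Agent.Results.P033.RunLengthBound
import Vale.Agent.Results.P033.NotKronecker

namespace Vale.Agent.Results.P033.NecessaryConditions

open Finset

/-- **Three necessary conditions on the first row of a circulant Hadamard matrix.**
Let `h : ℤ/n → {1,-1}` be the first row of a real circulant Hadamard matrix `H`
(`H i j = h (j - i)`, `H Hᵀ = n I`).
(1) If `n > 4`, the number `Y` of positions `j` with `h j = h (j+1) = h (j+2) = h (j+3)`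
satisfies `n/16 ≤ Y ≤ 3n/16`, and `Y` equals the number of `j` with
`h j ≠ h (j+1) = h (j+2) ≠ h (j+3)`, the number with `h j ≠ h (j+1) ≠ h (j+2) ≠ h (j+3)` and the
number with `h j = h (j+1) ≠ h (j+2) = h (j+3)`.
(2) If `h` is constant on `L ≤ n` cyclically consecutive positions, then
`3 L T + 2 ≤ 3 n + 2 T²` for every `1 ≤ T ≤ L`, and `3 L² + 4 ≤ 8 n`.
(3) If `n = a b` with `a, b ≥ 2`, no row of the form `h (i + a j) = α i * β j` (`i < a`, `j < b`,
all `α i`, `β j` in `{1,-1}`) is the first row of a circulant Hadamard matrix. -/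
theorem result :
    (∀ (n : ℕ) [NeZero n], 4 < n → ∀ h : ZMod n → ℝ, (∀ j, h j = 1 ∨ h j = -1) →
      (Matrix.of fun i j : ZMod n => h (j - i)) *
          (Matrix.of fun i j : ZMod n => h (j - i)).transpose
        = (n : ℝ) • (1 : Matrix (ZMod n) (ZMod n) ℝ) →
      (n ≤ 16 * (univ.filter fun j : ZMod n =>
          h j = h (j + 1) ∧ h (j + 1) = h (j + 2) ∧ h (j + 2) = h (j + 3)).card
        ∧ 16 * (univ.filter fun j : ZMod n =>
          h j = h (j + 1) ∧ h (j + 1) = h (j + 2) ∧ h (j + 2) = h (j + 3)).card ≤ 3 * n)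
      ∧ (univ.filter fun j : ZMod n =>
          h j ≠ h (j + 1) ∧ h (j + 1) = h (j + 2) ∧ h (j + 2) ≠ h (j + 3)).card
        = (univ.filter fun j : ZMod n =>
          h j = h (j + 1) ∧ h (j + 1) = h (j + 2) ∧ h (j + 2) = h (j + 3)).card
      ∧ (univ.filter fun j : ZMod n =>
          h j ≠ h (j + 1) ∧ h (j + 1) ≠ h (j + 2) ∧ h (j + 2) ≠ h (j + 3)).card
        = (univ.filter fun j : ZMod n =>
          h j = h (j + 1) ∧ h (j + 1) = h (j + 2) ∧ h (j + 2) = h (j + 3)).card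
      ∧ (univ.filter fun j : ZMod n =>
          h j = h (j + 1) ∧ h (j + 1) ≠ h (j + 2) ∧ h (j + 2) = h (j + 3)).card
        = (univ.filter fun j : ZMod n =>
          h j = h (j + 1) ∧ h (j + 1) = h (j + 2) ∧ h (j + 2) = h (j + 3)).card)
    ∧ (∀ (n : ℕ) [NeZero n] (h : ZMod n → ℝ), (∀ j, h j = 1 ∨ h j = -1) →
      (Matrix.of fun i j : ZMod n => h (j - i)) *
          (Matrix.of fun i j : ZMod n => h (j - i)).transpose
        = (n : ℝ) • (1 : Matrix (ZMod n) (ZMod n) ℝ) →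
      ∀ (x₀ : ZMod n) (L : ℕ), L ≤ n → (∀ i : ℕ, i < L → h (x₀ + (i : ZMod n)) = h x₀) →
      (∀ T : ℕ, 1 ≤ T → T ≤ L → 3 * L * T + 2 ≤ 3 * n + 2 * T * T) ∧ 3 * L ^ 2 + 4 ≤ 8 * n)
    ∧ (∀ (n a b : ℕ) [NeZero n], n = a * b → 2 ≤ a → 2 ≤ b →
      ∀ (h : ZMod n → ℝ) (α β : ℕ → ℝ), (∀ i, α i = 1 ∨ α i = -1) → (∀ j, β j = 1 ∨ β j = -1) →
      (∀ i : ℕ, i < a → ∀ j : ℕ, j < b → h ((i + a * j : ℕ) : ZMod n) = α i * β j) →
      (Matrix.of fun i j : ZMod n => h (j - i)) *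
          (Matrix.of fun i j : ZMod n => h (j - i)).transpose
        ≠ (n : ℝ) • (1 : Matrix (ZMod n) (ZMod n) ℝ)) :=
  ⟨fun n _ hn h hpm hH => FourWindowCounts.result n hn h hpm hH,
    fun n _ h hpm hH x₀ L hL hrun => RunLengthBound.result n h hpm hH x₀ L hL hrun,
    fun n a b _ hn ha hb h α β hα hβ hkron =>
      NotKronecker.result n a b hn ha hb h α β hα hβ hkron⟩

end Vale.Agent.Results.P033.NecessaryConditions
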